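import Vale.Agent.P275ER.Gain
import Vale.Agent.P275M.Clg

/-!
# P275, elliptic theory, part 3: regularity and compactness
-/

namespace Vale.Agent.P275ER

open MeasureTheory Filter Topology
open scoped ContDiff ENNReal
open Vale.Agent.P363.R.Sob Vale.Agent.P299.H863 Vale.Agent.P275M

set_option linter.unusedSectionVars false

noncomputable section

section gen

variable {E : Type*} [NormedAddCommGroup E] [NormedSpace ℝ E] [FiniteDimensional ℝ E]
  [MeasurableSpace E] [BorelSpace E] {μ : Measure E} [μ.IsAddHaarMeasure]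
variable {V W : Type*} [NormedAddCommGroup V] [NormedSpace ℝ V] [CompleteSpace V]
  [NormedAddCommGroup W] [NormedSpace ℝ W] [CompleteSpace W]
variable {ι : Type*} [Fintype ι] {e : ι → E} {a : ι → E → V →L[ℝ] W}

theorem tendsto_of_n2 {u : ℕ → E → V} (hu : ∀ n, MemLp (u n) 2 μ)
    (h : Tendsto (fun n => n2 μ (u n)) atTop (𝓝 0)) :
    Tendsto (fun n => eLpNorm (u n) 2 μ) atTop (𝓝 0) := by
  have h1 := ENNReal.tendsto_ofReal h
  rw [ENNReal.ofReal_zero] at h1
  exact h1.congr fun n => ENNReal.ofReal_toReal (hu n).2.ne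

theorem n2_clm {B : E → V →L[ℝ] W} (hB : Continuous B) (hc : HasCompactSupport B)
    {u : ℕ → E → V} (hu : ∀ n, MemLp (u n) 2 μ) (h : Tendsto (fun n => n2 μ (u n)) atTop (𝓝 0)) :
    Tendsto (fun n => n2 μ fun x => B x (u n x)) atTop (𝓝 0) := by
  obtain ⟨C, h0, hC⟩ := bdd_of_cpt hB hc
  refine squeeze_zero (fun _ => n2_nonneg _) (fun n => n2_mono_of_le h0 (hu n) fun x =>
    ((B x).le_opNorm _).trans (by gcongr; exact hC x)) ?_
  simpa using h.const_mul C

theorem memLp_smul {ψ : E → ℝ} (hψ : Continuous ψ) (hc : HasCompactSupport ψ) {u : E → V}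
    (hu : MemLp u 2 μ) : MemLp (fun x => ψ x • u x) 2 μ :=
  memLp_clm (B := fun x => ψ x • ContinuousLinearMap.id ℝ V) (hψ.smul continuous_const)
    hc.smul_right hu

theorem we_smooth (ha : ∀ j, ContDiff ℝ ∞ (a j)) {w : E → V} (hw : ContDiff ℝ ∞ w) :
    WE μ e a w fun x => ∑ j, (fderiv ℝ (a j) x (e j) (w x) + a j x (fderiv ℝ w x (e j))) := by
  intro φ hφ
  have h1 : ∀ j x, fderiv ℝ (fun y => a j y (w y)) x (e j) =
      fderiv ℝ (a j) x (e j) (w x) + a j x (fderiv ℝ w x (e j)) := fun j x => by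
    rw [fderiv_clm_apply ((ha j).differentiable (by simp) x) (hw.differentiable (by simp) x),
      add_comm]
    rfl
  simp only [← h1, Finset.smul_sum]
  rw [integral_finsetSum _ fun j _ => hφ.integrable_smul
    (cd_dir ((ha j).clm_apply hw) _).continuous.locallyIntegrable, ← Finset.sum_neg_distrib]
  exact Finset.sum_congr rfl fun j _ =>
    isWD_of_contDiff (((ha j).clm_apply hw).of_le (by simp)) φ hφ

theorem we_lim (ha : ∀ j, Continuous (a j)) (hc : ∀ j, HasCompactSupport (a j))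
    {un : ℕ → E → V} {Gn : ℕ → E → W} {u : E → V} {G : E → W} (h : ∀ n, WE μ e a (un n) (Gn n))
    (hun : ∀ n, MemLp (un n) 2 μ) (hGn : ∀ n, MemLp (Gn n) 2 μ) (hu : MemLp u 2 μ)
    (hG : MemLp G 2 μ) (h1 : Tendsto (fun n => n2 μ fun x => un n x - u x) atTop (𝓝 0))
    (h2 : Tendsto (fun n => n2 μ fun x => Gn n x - G x) atTop (𝓝 0)) : WE μ e a u G := by
  intro φ hφ
  refine tendsto_nhds_unique (tendsto_finsetSum _ fun j _ => tendsto_integral_test_smul
    (hφ.fderiv _) (fun n => memLp_clm (ha j) (hc j) (hun n)) (memLp_clm (ha j) (hc j) hu)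
    (tendsto_of_n2 (fun n => (memLp_clm (ha j) (hc j) (hun n)).sub (memLp_clm (ha j) (hc j) hu))
      ?_)) ((tendsto_integral_test_smul hφ hGn hG (tendsto_of_n2 (fun n => (hGn n).sub hG)
      h2)).neg.congr fun n => (h n φ hφ).symm)
  exact (n2_clm (ha j) (hc j) (fun n => (hun n).sub hu) h1).congr fun n =>
    congrArg (n2 μ) (funext fun x => map_sub (a j x) _ _)

end gen

section loc

variable {E : Type} [NormedAddCommGroup E] [NormedSpace ℝ E] [FiniteDimensional ℝ E]
  [MeasurableSpace E] [BorelSpace E] {μ : Measure E} [μ.IsAddHaarMeasure]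
variable {V W : Type} [NormedAddCommGroup V] [NormedSpace ℝ V] [FiniteDimensional ℝ V]
  [NormedAddCommGroup W] [NormedSpace ℝ W] [FiniteDimensional ℝ W]

/-- **local regularity** -/
theorem lreg0 {U : Set E} {a : E → (E →L[ℝ] V) →L[ℝ] W} {b : E → V →L[ℝ] W} {u : ℕ → E → V}
    {F : E → V} {f : E → W} (hU : IsOpen U) (ha : ContDiffOn ℝ ∞ a U) (hb : ContDiffOn ℝ ∞ b U)
    (hs : ∀ x ∈ U, Clf (sym (a x))) (hu : ∀ k, ContDiffOn ℝ ∞ (u k) U) (hF : MemLp F 2 μ)
    (hf : ContDiffOn ℝ ∞ f U) (h : ∀ ψ : E → ℝ, TestV U ψ →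
      Tendsto (fun k => n2 μ fun z => ψ z • (u k z - F z)) atTop (𝓝 0) ∧
      Tendsto (fun k => n2 μ fun z => ψ z • (fo a b (u k) z - f z)) atTop (𝓝 0))
    {ψ : E → ℝ} (hψ : TestV U ψ) : ∃ g, ContDiff ℝ ∞ g ∧ (∀ x, x ∉ tsupport ψ → g x = 0) ∧
      (fun x => ψ x • F x) =ᵐ[μ] g := by
  have := FiniteDimensional.complete ℝ V
  have := FiniteDimensional.complete ℝ W
  have hz : ∀ ψ : E → ℝ, Zo μ (tsupport ψ) fun x => ψ x • F x := fun ψ =>
    Eventually.of_forall fun x hx => by
      simp only [image_eq_zero_of_notMem_tsupport hx, zero_smul]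
  refine emb hψ.cpt.isCompact (fun k => ?_) (hz ψ)
  let e := Module.finBasis ℝ E
  let A : Fin (Module.finrank ℝ E) → E → V →L[ℝ] W := fun j x => (a x).comp
    (ContinuousLinearMap.smulRightL ℝ E V (LinearMap.toContinuousLinearMap (e.coord j)))
  have hA : ∀ j, ContDiffOn ℝ ∞ (A j) U := fun j => ha.clm_comp contDiffOn_const
  have hd : ∀ x (T : E →L[ℝ] V), ∑ j, A j x (T (e j)) = a x T := fun x T => by
    simp only [A, ContinuousLinearMap.comp_apply, ← map_sum]
    congr 1
    ext v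
    conv_rhs => rw [← e.sum_repr v, map_sum]
    simp
  induction k generalizing ψ with
  | zero => exact memLp_smul hψ.smooth.continuous hψ.cpt hF
  | succ k ih =>
    obtain ⟨r, hr, hrU⟩ := hψ.cpt.isCompact.exists_cthickening_subset_open hU hψ.supp
    have hK := hψ.cpt.isCompact.cthickening (r := r)
    obtain ⟨θ, hθ, hθ1, -⟩ := exists_testV hK hU hrU
    have h1 : ∀ x ∈ tsupport ψ, θ =ᶠ[𝓝 x] fun _ => 1 := fun x hx =>
      mem_of_superset (Metric.isOpen_thickening.mem_nhds (Metric.self_subset_thickening hr _ hx))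
        fun y hy => hθ1 y (Metric.thickening_subset_cthickening _ _ hy)
    have h2 := fun j => hθ.smul hU (hA j)
    have h3 := fun j => hψ.smul hU (hA j)
    have h4 := hψ.smul hU hb
    have h5 := hψ.smul hU hf
    have h6 := fun k => hθ.smul hU (hu k)
    let B : E → V →L[ℝ] W := fun x => ∑ j, fderiv ℝ (fun y => ψ y • A j y) x (e j) - ψ x • b x
    have hB : ContDiff ℝ ∞ B := (ContDiff.sum fun j _ => cd_dir (h3 j).smooth _).sub h4.smooth
    have hBc : HasCompactSupport B := (HasCompactSupport.finset_sum (s := Finset.univ)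
      fun j _ => cs_dir (h3 j).cpt (e j)).sub h4.cpt |>.mono fun x hx => by
        simpa [B] using hx
    have hG := (hk_test k h5.smooth h5.cpt).add ((ih hθ).clm hB hBc)
    have hR : ∀ k, TestV U fun z => ψ z • (fo a b (u k) z - f z) := fun k => hψ.smul hU
      (((ha.clm_apply ((hu k).fderiv_of_isOpen hU (by simp))).add (hb.clm_apply (hu k))).sub hf)
    have hm : ∀ k, MemLp (fun x => θ x • u k x - θ x • F x) 2 μ := fun k =>
      (h6 k).memLp.sub (ih hθ).memLp
    have hl : Tendsto (fun k => n2 μ fun x => θ x • u k x - θ x • F x) atTop (𝓝 0) := by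
      simpa only [smul_sub] using (h θ hθ).1
    have h7 : WE μ e (fun j x => ψ x • A j x) (fun x => θ x • F x)
        fun x => ψ x • f x + B x (θ x • F x) := by
      refine we_lim (Gn := fun k x => ψ x • (fo a b (u k) x - f x) +
        (ψ x • f x + B x (θ x • u k x))) (fun j => (h3 j).smooth.continuous)
        (fun j => (h3 j).cpt) (fun k => ?_) (fun k => (h6 k).memLp) (fun k => (hR k).memLp.add
        (h5.memLp.add (memLp_clm hB.continuous hBc (h6 k).memLp))) (ih hθ).memLp hG.memLp hl ?_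
      · have h8 := we_smooth (μ := μ) (e := e) (fun j => (h3 j).smooth) (h6 k).smooth
        refine (congrArg (WE μ e _ _) (funext fun x => ?_)).mp h8
        have h9 : ∑ j, (ψ x • A j x) (fderiv ℝ (fun y => θ y • u k y) x (e j)) =
            ψ x • a x (fderiv ℝ (u k) x) ∧ ψ x • b x (θ x • u k x) = ψ x • b x (u k x) := by
          by_cases hx : x ∈ tsupport ψ
          · have h10 : (fun y => θ y • u k y) =ᶠ[𝓝 x] u k :=
              (h1 x hx).mono fun y hy => by simp only [hy, one_smul]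
            simp only [h10.fderiv_eq, smul_apply, ← Finset.smul_sum, hd,
              (h1 x hx).self_of_nhds, one_smul, and_self]
          · simp [hψ.zero_off hx]
        simp only [Finset.sum_add_distrib, h9.1, B, fo, sub_apply, sum_apply, smul_add, smul_sub]
        rw [smul_apply, h9.2]
        abel
      · have h8 := ((h ψ hψ).2).add (n2_clm hB.continuous hBc hm hl)
        rw [add_zero] at h8
        refine squeeze_zero (fun _ => n2_nonneg _) (fun k => le_trans (le_of_eq ?_)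
          (n2_add_le (hR k).memLp (memLp_clm hB.continuous hBc (hm k)))) h8
        congr 1
        funext x
        rw [map_sub]
        abel
    refine gain (e := e) (fun j => (h2 j).smooth) (fun j => (h2 j).cpt) hψ.cpt.isCompact hr ?_ k
      (ih hψ) (hz ψ) hG fun φ hφ => Eq.trans ?_ (h7 φ hφ)
    · obtain ⟨C, hC0, hC⟩ := lgar E μ _ e V W U _ a 0 hU hK hrU ha contDiffOn_const hs
      refine ⟨C, hC0, fun w hw hw' => (hC w hw hw').trans (le_of_eq ?_)⟩
      congr 3
      funext x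
      simp only [fo, Pi.zero_apply, zero_apply, add_zero, smul_apply, ← Finset.smul_sum, hd]
      by_cases hx : x ∈ tsupport w
      · rw [hθ1 x (hw' hx), one_smul]
      · rw [image_eq_zero_of_notMem_tsupport fun h => hx (tsupport_fderiv_subset ℝ h), map_zero,
          smul_zero]
    · simp only [smul_apply, map_smul, smul_comm (θ _) (ψ _)]

end loc

section glob

variable {E ι V₁ S₁ V₂ S₂ : Type} [NormedAddCommGroup E] [NormedSpace ℝ E]
  [FiniteDimensional ℝ E] [MeasurableSpace E] [BorelSpace E] [Fintype ι] {μ : Measure E}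
  [μ.IsAddHaarMeasure] {c : Cov E ι} [NormedAddCommGroup V₁] [InnerProductSpace ℂ V₁]
  [FiniteDimensional ℂ V₁] [NormedAddCommGroup S₁] [InnerProductSpace ℂ S₁]
  [NormedAddCommGroup V₂] [InnerProductSpace ℂ V₂] [FiniteDimensional ℂ V₂]
  [NormedAddCommGroup S₂] [InnerProductSpace ℂ S₂] {L₁ : LocSp μ c V₁ S₁} {L₂ : LocSp μ c V₂ S₂}
  {D : S₁ →ₗ[ℂ] S₂}

/-- **regularity** on a compact manifold -/
theorem reg (A : LocOp L₁ L₂ D) (hs : ∀ i, ∀ x ∈ c.Ω i, Clf (sym (A.a i x))) {w : ℕ → S₁}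
    {f : S₂} (hw : CauchySeq w) (hd : Tendsto (fun k => D (w k)) atTop (𝓝 f)) :
    ∃ s, Tendsto w atTop (𝓝 s) := by
  have := LocSp.complete V₁
  have := FiniteDimensional.complexToReal V₁
  have := FiniteDimensional.complexToReal V₂
  have hloc : ∀ i, ∃ u : E → V₁, TestV (c.Ω i) u ∧ (∀ x, x ∉ c.K i → u x = 0) ∧
      Tendsto (fun k => n2 μ (fun z => L₁.loc i (w k) z - u z)) atTop (𝓝 0) := by
    intro i
    obtain ⟨θ, hθ, hθ1, -⟩ := exists_testV (c.K_cpt i) (c.isOpen i) (c.K_sub i)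
    have hUΩ : interior (c.K i) ⊆ c.Ω i := interior_subset.trans (c.K_sub i)
    have hχ : TestV (interior (c.K i)) (c.χ i) :=
      ⟨(c.test i).smooth, (c.test i).cpt, LocSp.supp_sub_interior i⟩
    have hgt : ∀ k, TestV (c.Ω i) fun z => θ z • L₁.r i (w k) z := fun k =>
      hθ.smul (c.isOpen i) (L₁.r_smooth i _)
    obtain ⟨C, hC0, hC⟩ := L₁.exists_r_le hθ
    obtain ⟨F, hF, hFl⟩ := exists_limit_n2 (μ := μ) (fun k => (hgt k).memLp) fun ε hε => by
      obtain ⟨N, hN⟩ := Metric.cauchySeq_iff.1 hw (ε / (C + 1)) (by positivity)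
      refine ⟨N, fun k hk l hl => lt_of_le_of_lt (le_trans (le_of_eq ?_) (hC (w k - w l))) ?_⟩
      · congr 1
        funext z
        by_cases hz : z ∈ c.Ω i
        · rw [L₁.r_sub i _ _ hz, smul_sub]
        · simp only [hθ.zero_off fun h => hz (hθ.supp h), zero_smul, sub_zero]
      · have h1 := hN k hk l hl
        rw [dist_eq_norm, lt_div_iff₀ (by positivity)] at h1
        nlinarith [norm_nonneg (w k - w l)]
    have h1 : ∀ ψ : E → ℝ, TestV (interior (c.K i)) ψ →
        Tendsto (fun k => n2 μ fun z => ψ z • (L₁.r i (w k) z - F z)) atTop (𝓝 0) := fun ψ hψ => by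
      refine (n2_clm (B := fun x => ψ x • ContinuousLinearMap.id ℝ V₁)
        (hψ.smooth.continuous.smul continuous_const) hψ.cpt.smul_right
        (fun k => (hgt k).memLp.sub hF) hFl).congr fun k => congrArg (n2 μ) (funext fun z => ?_)
      by_cases hz : z ∈ tsupport ψ
      · simp [hθ1 z (interior_subset (hψ.supp hz))]
      · simp [hψ.zero_off hz]
    obtain ⟨g, h2, h3, h4⟩ := lreg0 (u := fun k => L₁.r i (w k)) isOpen_interior
      ((A.a_smooth i).mono hUΩ) ((A.b_smooth i).mono hUΩ) (fun x hx => hs i x (hUΩ hx))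
      (fun k => (L₁.r_smooth i _).mono hUΩ) hF ((L₂.r_smooth i f).mono hUΩ)
      (fun ψ hψ => ⟨h1 ψ hψ, by
        obtain ⟨C', -, hC'⟩ := L₂.exists_r_le (hψ.mono hUΩ)
        have h5 := (tendsto_iff_norm_sub_tendsto_zero.1 hd).const_mul C'
        rw [mul_zero] at h5
        refine squeeze_zero (fun _ => n2_nonneg _)
          (fun k => le_trans (le_of_eq ?_) (hC' (D (w k) - f))) h5
        congr 1
        funext z
        by_cases hz : z ∈ tsupport ψ
        · rw [L₂.r_sub i _ _ (hUΩ (hψ.supp hz)), A.r_D i _ z (hUΩ (hψ.supp hz))]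
        · simp only [hψ.zero_off hz, zero_smul]⟩) hχ
    refine ⟨g, TestV.mk' (c.isOpen i) (c.test i).cpt (c.test i).supp h2.contDiffOn h3,
      fun x hx => h3 x fun h => hx (c.supp_sub i h), (h1 _ hχ).congr fun k =>
      congrArg ENNReal.toReal (eLpNorm_congr_ae ?_)⟩
    filter_upwards [h4] with z hz
    rw [smul_sub, hz]
    rfl
  choose u hu hu0 hul using hloc
  exact ⟨_, L₁.tendsto_of_loc hu hu0 hul⟩

/-- **the inequality of Garding** on a compact manifold -/
theorem gard (A : LocOp L₁ L₂ D) (hs : ∀ i, ∀ x ∈ c.Ω i, Clf (sym (A.a i x))) (i : ι) :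
    ∃ C : ℝ, 0 ≤ C ∧ ∀ s, n2 μ (fderiv ℝ (L₁.loc i s)) ≤ C * (‖s‖ + ‖D s‖) := by
  have := FiniteDimensional.complexToReal V₁
  have := FiniteDimensional.complexToReal V₂
  obtain ⟨C, hC0, hC⟩ := lgar E μ _ (Module.finBasis ℝ E) V₁ V₂ _ _ _ _ (c.isOpen i) (c.K_cpt i)
    (c.K_sub i) (A.a_smooth i) (A.b_smooth i) (hs i)
  obtain ⟨a, b, hab, ha, hb⟩ := A.exists_coef i
  obtain ⟨C1, h10, h1⟩ := A.exists_zero_le i hab ha hb
  obtain ⟨C2, h20, h2⟩ := L₁.exists_loc_le
  obtain ⟨C3, h30, h3⟩ := L₂.exists_loc_le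
  refine ⟨C * (C1 + C2 + C3), by positivity, fun s => ?_⟩
  have h0 : ∀ x, x ∉ c.K i → L₁.loc i s x = 0 := fun x hx =>
    L₁.loc_zero i s fun h => hx (c.supp_sub i h)
  have h4 := hC _ (L₁.loc_test i s).smooth (closure_minimal (fun x hx => by
    by_contra h5
    exact hx (h0 x h5)) (c.K_cpt i).isClosed)
  rw [← LocOp.fo_congr_on (c.K_cpt i).isClosed h0 ha hb] at h4
  have h5 := n2_add_le (μ := μ) ((hab.memLp (L₁.loc_test i s).smooth).sub
    (L₂.loc_test i (D s)).memLp) (L₂.loc_test i (D s)).memLp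
  simp only [Pi.sub_apply, sub_add_cancel] at h5
  have h6 := h5.trans (add_le_add (h1 s) (h3 i (D s)))
  refine h4.trans ((mul_le_mul_of_nonneg_left (add_le_add h6 (h2 i s)) hC0).trans ?_)
  rw [mul_assoc]
  refine mul_le_mul_of_nonneg_left ?_ hC0
  nlinarith [mul_nonneg h10 (norm_nonneg (D s)), mul_nonneg h20 (norm_nonneg (D s)),
    mul_nonneg h30 (norm_nonneg s)]

/-- **compactness** on a compact manifold -/
theorem tb (A : LocOp L₁ L₂ D) (hs : ∀ i, ∀ x ∈ c.Ω i, Clf (sym (A.a i x))) (C : ℝ) :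
    TotallyBounded {s : S₁ | ‖s‖ ≤ C ∧ ‖D s‖ ≤ C} :=
  L₁.totallyBounded (fun _ h => h.1) fun i => by
    obtain ⟨C', h0, h1⟩ := gard A hs i
    exact ⟨C' * (C + C), fun s h => (h1 s).trans
      (mul_le_mul_of_nonneg_left (add_le_add h.1 h.2) h0)⟩

end glob

/-- row GREG -/
theorem greg : GREG := fun _ _ _ _ _ _ _ _ _ _ _ _ _ _ _ _ _ _ _ _ A hs =>
  ⟨fun _ _ => reg A hs, tb A hs⟩

end

end Vale.Agent.P275ER
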