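import Vale.Agent.P275ER.Sob

/-!
# P275, elliptic theory, part 2: weak solutions gain one derivative
-/

namespace Vale.Agent.P275ER

open MeasureTheory Filter Topology
open scoped ContDiff ENNReal
open Vale.Agent.P363.R.Sob Vale.Agent.P299.H863

set_option linter.unusedSectionVars false

noncomputable section

theorem weak_hil {H : Type*} [NormedAddCommGroup H] [InnerProductSpace ℝ H] [CompleteSpace H]
    {x : ℕ → H} {C : ℝ} (h : ∀ n, ‖x n‖ ≤ C) :
    ∃ y, ∀ z, Tendsto (fun n => inner ℝ (x n) z) (hyperfilter ℕ) (𝓝 (inner ℝ y z)) := by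
  have h0 : ∀ n z, ‖inner ℝ (x n) z‖ ≤ C * ‖z‖ := fun n z =>
    (norm_inner_le_norm _ _).trans (by gcongr; exact h n)
  have h1 : ∀ z, ∃ l, Tendsto (fun n => inner ℝ (x n) z) (hyperfilter ℕ) (𝓝 l) := fun z => by
    obtain ⟨l, -, hl⟩ := (isCompact_closedBall (0 : ℝ) (C * ‖z‖)).ultrafilter_le_nhds
      ((hyperfilter ℕ).map fun n => inner ℝ (x n) z) (le_principal_iff.2 (mem_map.2
        (Eventually.of_forall fun n => mem_closedBall_zero_iff.2 (h0 n z))))
    exact ⟨l, hl⟩
  choose l hl using h1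
  let f : H →ₗ[ℝ] ℝ :=
    { toFun := l
      map_add' := fun z z' => tendsto_nhds_unique (hl _)
        (((hl z).add (hl z')).congr fun n => (inner_add_right _ _ _).symm)
      map_smul' := fun c z => tendsto_nhds_unique (hl _)
        (((hl z).const_mul c).congr fun n => (real_inner_smul_right _ _ _).symm) }
  refine ⟨(InnerProductSpace.toDual ℝ H).symm (f.mkContinuous C fun z =>
    le_of_tendsto' (hl z).norm fun n => h0 n z), fun z => ?_⟩
  rw [InnerProductSpace.toDual_symm_apply]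
  exact hl z

variable {E : Type*} [NormedAddCommGroup E] [NormedSpace ℝ E] [FiniteDimensional ℝ E]
  [MeasurableSpace E] [BorelSpace E] {μ : Measure E} [μ.IsAddHaarMeasure]
variable {V W : Type*} [NormedAddCommGroup V] [NormedSpace ℝ V] [CompleteSpace V]
  [NormedAddCommGroup W] [NormedSpace ℝ W] [CompleteSpace W]

theorem pair_lp {H : Type*} [NormedAddCommGroup H] [InnerProductSpace ℝ H] [CompleteSpace H]
    {φ : E → ℝ} (hφ : Test φ) (c : H) : ∃ z : Lp H 2 μ, ∀ y : Lp H 2 μ,
      inner ℝ y z = inner ℝ c (∫ x, φ x • y x ∂μ) := by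
  have h1 : MemLp (fun x => φ x • c) 2 μ :=
    (hφ.continuous.smul continuous_const).memLp_of_hasCompactSupport hφ.2.smul_right
  refine ⟨h1.toLp _, fun y => ?_⟩
  rw [L2.inner_def, ← integral_inner
    (hφ.integrable_smul ((Lp.memLp y).locallyIntegrable (by norm_num)))]
  refine integral_congr_ae ?_
  filter_upwards [h1.coeFn_toLp] with x hx
  rw [hx, real_inner_smul_right, real_inner_smul_right, real_inner_comm]

/-- a bounded sequence of weak derivatives -/
theorem wd_of_bdd [FiniteDimensional ℝ V] {v : E} {u : E → V} {un gn : ℕ → E → V} {C : ℝ}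
    (hu : MemLp u 2 μ) (hun : ∀ n, MemLp (un n) 2 μ) (hgn : ∀ n, MemLp (gn n) 2 μ)
    (hw : ∀ n, IsWD μ v (un n) (gn n)) (hb : ∀ n, n2 μ (gn n) ≤ C)
    (hl : Tendsto (fun n => eLpNorm (un n - u) 2 μ) atTop (𝓝 0)) :
    ∃ g, IsWD μ v u g ∧ MemLp g 2 μ := by
  let T := toEuclidean (E := V)
  have h1 : ∀ n, MemLp (fun x => T (gn n x)) 2 μ := fun n =>
    T.toContinuousLinearMap.comp_memLp' (hgn n)
  obtain ⟨y, hy⟩ := weak_hil (x := fun n => (h1 n).toLp _) (C := ‖T.toContinuousLinearMap‖ * C)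
    fun n => by
      rw [Lp.norm_toLp]
      exact (n2_mono_of_le (norm_nonneg _) (hgn n) fun x =>
        T.toContinuousLinearMap.le_opNorm _).trans (by gcongr; exact hb n)
  refine ⟨fun x => T.symm (y x), fun φ hφ => T.injective (ext_inner_left ℝ fun c => ?_),
    T.symm.toContinuousLinearMap.comp_memLp' (Lp.memLp y)⟩
  obtain ⟨z, hz⟩ := pair_lp (μ := μ) hφ c
  have h2 := (hy z).neg
  have h3 : Tendsto (fun n => inner ℝ c (T (∫ x, fderiv ℝ φ x v • un n x ∂μ))) (hyperfilter ℕ)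
      (𝓝 (inner ℝ c (T (∫ x, fderiv ℝ φ x v • u x ∂μ)))) :=
    tendsto_const_nhds.inner ((T.continuous.tendsto _).comp
      ((tendsto_integral_test_smul (hφ.fderiv v) hun hu hl).mono_left
        Nat.hyperfilter_le_atTop))
  refine (tendsto_nhds_unique h3 (h2.congr fun n => ?_)).trans ?_
  · rw [hz, hw n φ hφ, map_neg, inner_neg_right, ← T.integral_comp_comm]
    congr 2
    refine integral_congr_ae ?_
    filter_upwards [(h1 n).coeFn_toLp] with x hx
    rw [hx, map_smul]
  · rw [hz, map_neg, inner_neg_right, ← T.integral_comp_comm]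
    simp only [map_smul, T.apply_symm_apply]

theorem kernel_le {k : E → E → V →L[ℝ] W} {g : E → ℝ≥0∞} (hg : Measurable g)
    (hk : ∀ x z, ‖k x z‖ₑ ≤ g z) {u : E → V} (hu : AEStronglyMeasurable u μ) :
    eLpNorm (fun x => ∫ z, k x z (u (x - z)) ∂μ) 2 μ ≤ (∫⁻ z, g z ∂μ) * eLpNorm u 2 μ := by
  rw [eLpNorm_congr_ae hu.ae_eq_mk]
  refine le_trans (le_of_eq ?_) (eLpNorm_kernel_le hg hk hu.stronglyMeasurable_mk)
  congr 1
  funext x
  refine integral_congr_ae ?_
  filter_upwards [(Measure.measurePreserving_sub_left μ x).quasiMeasurePreserving.ae_eq_comp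
    hu.ae_eq_mk] with z hz
  exact congrArg (k x z) hz

theorem moll_le (ρ : ContDiffBump (0 : E)) {u : E → V} (hu : AEStronglyMeasurable u μ) :
    eLpNorm (moll μ ρ u) 2 μ ≤ eLpNorm u 2 μ := by
  rw [eLpNorm_congr_ae hu.ae_eq_mk, moll_congr_ae ρ hu.ae_eq_mk]
  exact eLpNorm_moll_le ρ hu.stronglyMeasurable_mk

theorem fderiv_moll_eq (ρ : ContDiffBump (0 : E)) {f : E → V} (hf : LocallyIntegrable f μ)
    (x v : E) :
    fderiv ℝ (moll μ ρ f) x v = ∫ t, fderiv ℝ (ρ.normed μ) t v • f (x - t) ∂μ := by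
  have h1 := (ρ.hasCompactSupport_normed (μ := μ)).hasFDerivAt_convolution_left
    (ContinuousLinearMap.lsmul ℝ ℝ) (ρ.contDiff_normed (n := 1)) hf x
  have h2 : Integrable (fun t => (ContinuousLinearMap.precompL E (ContinuousLinearMap.lsmul ℝ ℝ))
      (fderiv ℝ (ρ.normed μ) t) (f (x - t))) μ :=
    ((ρ.hasCompactSupport_normed (μ := μ)).fderiv ℝ).convolutionExists_left
      (ContinuousLinearMap.precompL E (ContinuousLinearMap.lsmul ℝ ℝ : ℝ →L[ℝ] V →L[ℝ] V))
      ((ρ.contDiff_normed (n := 1)).continuous_fderiv (by simp)) hf x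
  rw [moll, h1.fderiv, convolution_def, ContinuousLinearMap.integral_apply h2]
  rfl

theorem fderiv_normed_sub (ρ : ContDiffBump (0 : E)) (x s v : E) :
    fderiv ℝ (fun s => ρ.normed μ (x - s)) s v = -fderiv ℝ (ρ.normed μ) (x - s) v := by
  have h1 := ((ρ.contDiff_normed (μ := μ) (n := 1)).differentiable (by simp)
    (x - s)).hasFDerivAt.comp s ((hasFDerivAt_id s).const_sub x)
  rw [show (fun s => ρ.normed μ (x - s)) = ρ.normed μ ∘ fun s => x - s from rfl,
    HasFDerivAt.fderiv h1]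
  simp

/-- the commutator estimate of Friedrichs for square integrable functions -/
theorem comm_le {a : E → V →L[ℝ] W} (ha : ContDiff ℝ ∞ a) (hc : HasCompactSupport a) (v : E) :
    ∃ C : ℝ≥0∞, C ≠ ⊤ ∧ ∀ (n : ℕ) (u : E → V), MemLp u 2 μ →
      eLpNorm (fun x => a x (fderiv ℝ (moll μ (stdBump n) u) x v) -
        fderiv ℝ (moll μ (stdBump n) fun s => a s (u s)) x v) 2 μ ≤ C * eLpNorm u 2 μ := by
  obtain ⟨L, hL⟩ := ContDiff.lipschitzWith_of_hasCompactSupport hc
    (ha.of_le (by simp) : ContDiff ℝ 1 a) (by simp)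
  refine ⟨L * ‖v‖ₑ * frC μ, ENNReal.mul_ne_top (ENNReal.mul_ne_top ENNReal.coe_ne_top
    enorm_ne_top) frC_ne_top, fun n u hu => ?_⟩
  set ρ := (stdBump n : ContDiffBump (0 : E)).normed μ with hρ
  have hm := (continuous_fr (μ := μ) n).measurable.ennreal_ofReal
  have h1 := kernel_le (μ := μ) (k := fun x z => fderiv ℝ ρ z v • (a x - a (x - z)))
    (hm.const_mul (L * ‖v‖ₑ)) (fun x z => ?_) hu.1
  · rw [lintegral_const_mul _ hm, lintegral_fr] at h1
    refine le_trans (le_of_eq ?_) h1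
    congr 1
    funext x
    have hl := hu.locallyIntegrable (by norm_num)
    have hl' := (memLp_clm ha.continuous hc hu).locallyIntegrable (by norm_num)
    have ht : Test fun t => fderiv ℝ ρ t v :=
      Test.fderiv ⟨ContDiffBump.contDiff_normed _, ContDiffBump.hasCompactSupport_normed _⟩ v
    have i1 : Integrable (fun t => fderiv ℝ ρ t v • u (x - t)) μ :=
      ht.2.convolutionExists_left (ContinuousLinearMap.lsmul ℝ ℝ) ht.continuous hl x
    have i2 : Integrable (fun t => fderiv ℝ ρ t v • a (x - t) (u (x - t))) μ :=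
      ht.2.convolutionExists_left (ContinuousLinearMap.lsmul ℝ ℝ) ht.continuous hl' x
    rw [fderiv_moll_eq _ hl, fderiv_moll_eq _ hl', ← (a x).integral_comp_comm i1,
      ← integral_sub ((a x).integrable_comp i1) i2]
    refine integral_congr_ae (Eventually.of_forall fun t => ?_)
    simp only [map_smul, smul_apply, sub_apply, smul_sub]
  · have h2 : ‖a x - a (x - z)‖ ≤ L * ‖z‖ := by
      have := hL.dist_le_mul x (x - z)
      rwa [dist_eq_norm, dist_eq_norm, sub_sub_cancel] at this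
    have h3 : ‖fderiv ℝ ρ z v • (a x - a (x - z))‖ ≤ L * ‖v‖ * (‖z‖ * ‖fderiv ℝ ρ z‖) := by
      rw [norm_smul]
      calc _ ≤ (‖fderiv ℝ ρ z‖ * ‖v‖) * (L * ‖z‖) := by
            gcongr
            exact (fderiv ℝ ρ z).le_opNorm v
        _ = _ := by ring
    rw [← ofReal_norm]
    refine (ENNReal.ofReal_le_ofReal h3).trans (le_of_eq ?_)
    rw [ENNReal.ofReal_mul (by positivity), ENNReal.ofReal_mul (by positivity), ofReal_norm,
      ENNReal.ofReal_coe_nnreal]

variable {ι : Type*} [Fintype ι] {e : ι → E} {a : ι → E → V →L[ℝ] W}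

variable (μ e a) in
/-- `u` is a weak solution of `∑ j, ∂_j (a j u) = G` -/
def WE (u : E → V) (G : E → W) : Prop := ∀ φ, Test φ →
  ∑ j, ∫ x, fderiv ℝ φ x (e j) • a j x (u x) ∂μ = -∫ x, φ x • G x ∂μ

variable (μ e a) in
/-- the inequality of Garding for functions with support in `K` -/
def Ga (K : Set E) : Prop := ∃ C : ℝ, 0 ≤ C ∧ ∀ w : E → V, ContDiff ℝ ∞ w → tsupport w ⊆ K →
  n2 μ (fderiv ℝ w) ≤ C * (n2 μ (fun x => ∑ j, a j x (fderiv ℝ w x (e j))) + n2 μ w)

theorem gain0 [FiniteDimensional ℝ V] (ha : ∀ j, ContDiff ℝ ∞ (a j))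
    (hc : ∀ j, HasCompactSupport (a j)) {K : Set E} (hK : IsCompact K) {r : ℝ} (hr : 0 < r)
    (hg : Ga μ e a (Metric.cthickening r K)) {u : E → V} {G : E → W} (hu : MemLp u 2 μ)
    (h0 : Zo μ K u) (hG : MemLp G 2 μ) (h : WE μ e a u G) (v : E) :
    ∃ g, IsWD μ v u g ∧ MemLp g 2 μ := by
  obtain ⟨C, hC0, hC⟩ := hg
  choose L hL hL' using fun j => comm_le (μ := μ) (ha j) (hc j) (e j)
  obtain ⟨N, hN⟩ := eventually_atTop.1
    ((tendsto_stdBump_rOut (E := E)).eventually (ge_mem_nhds hr))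
  have hl := hu.locallyIntegrable (by norm_num)
  have hl' := fun j => (memLp_clm (ha j).continuous (hc j) hu).locallyIntegrable (by norm_num)
  have hs : ∀ n, ContDiff ℝ ∞ (moll μ (stdBump n) u) := fun n => moll_contDiff _ hl
  have hB : eLpNorm G 2 μ + ∑ j, L j * eLpNorm u 2 μ ≠ ⊤ := ENNReal.add_ne_top.2 ⟨hG.2.ne,
    ENNReal.sum_ne_top.2 fun j _ => ENNReal.mul_ne_top (hL j) hu.2.ne⟩
  have h1 : ∀ n, n2 μ (fun x => ∑ j, a j x (fderiv ℝ (moll μ (stdBump n) u) x (e j))) ≤
      (eLpNorm G 2 μ + ∑ j, L j * eLpNorm u 2 μ).toReal := fun n => by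
    refine ENNReal.toReal_mono hB ?_
    have hm : ∀ j, AEStronglyMeasurable (fun x => a j x (fderiv ℝ (moll μ (stdBump n) u) x (e j)) -
        fderiv ℝ (moll μ (stdBump n) fun s => a j s (u s)) x (e j)) μ := fun j =>
      (((ha j).clm_apply (cd_dir (hs n) _)).sub
        (cd_dir (moll_contDiff _ (hl' j)) _)).continuous.aestronglyMeasurable
    have h2 : (fun x => ∑ j, a j x (fderiv ℝ (moll μ (stdBump n) u) x (e j))) =
        moll μ (stdBump n) G + ∑ j, fun x => a j x (fderiv ℝ (moll μ (stdBump n) u) x (e j)) -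
          fderiv ℝ (moll μ (stdBump n) fun s => a j s (u s)) x (e j) := by
      funext x
      have h3 := h _ (test_normed_sub (μ := μ) (stdBump n) x)
      simp only [fderiv_normed_sub, neg_smul, integral_neg, Finset.sum_neg_distrib, neg_inj] at h3
      rw [Pi.add_apply, Finset.sum_apply, Finset.sum_sub_distrib, moll_apply', ← h3, add_comm,
        eq_comm, sub_add, sub_eq_self, sub_eq_zero]
      refine Finset.sum_congr rfl fun j _ => ?_
      rw [fderiv_moll_eq _ (hl' j), ← integral_sub_left_eq_self _ μ x]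
      simp only [sub_sub_cancel]
    rw [h2]
    refine (eLpNorm_add_le (moll_contDiff _ (hG.locallyIntegrable
      (by norm_num))).continuous.aestronglyMeasurable (Finset.aestronglyMeasurable_sum _
      fun j _ => hm j) (by norm_num)).trans (add_le_add (moll_le _ hG.1) ?_)
    exact (eLpNorm_sum_le (fun j _ => hm j) (by norm_num)).trans
      (Finset.sum_le_sum fun j _ => hL' j n u hu)
  refine wd_of_bdd (un := fun n => moll μ (stdBump (n + N)) u)
    (gn := fun n x => fderiv ℝ (moll μ (stdBump (n + N)) u) x v)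
    (C := ‖v‖ * (C * ((eLpNorm G 2 μ + ∑ j, L j * eLpNorm u 2 μ).toReal + n2 μ u))) hu
    (fun n => (hs _).continuous.memLp_of_hasCompactSupport (h0.moll_cs hK _))
    (fun n => (cd_dir (hs _) v).continuous.memLp_of_hasCompactSupport
      (cs_dir (h0.moll_cs hK _) v)) (fun n => isWD_of_contDiff ((hs _).of_le (by simp)))
    (fun n => ?_) ((tendsto_moll_std (by simp) hu).comp (tendsto_add_atTop_nat N))
  refine (n2_mono_of_le (norm_nonneg v) (((hs (n + N)).continuous_fderiv
    (by simp)).memLp_of_hasCompactSupport ((h0.moll_cs hK _).fderiv ℝ)) fun x =>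
    (ContinuousLinearMap.le_opNorm _ _).trans (mul_comm _ _).le).trans ?_
  refine mul_le_mul_of_nonneg_left ((hC _ (hs _) (closure_minimal (fun x hx => ?_)
    Metric.isClosed_cthickening)).trans ?_) (norm_nonneg v)
  · by_contra h4
    exact hx (h0.moll _ (hN _ (Nat.le_add_left N n)) h4)
  · exact mul_le_mul_of_nonneg_left (add_le_add (h1 _)
      (ENNReal.toReal_mono hu.2.ne (moll_le _ hu.1))) hC0

theorem dir_comm {φ : E → ℝ} (hφ : ContDiff ℝ ∞ φ) (v w x : E) :
    fderiv ℝ (fun y => fderiv ℝ φ y v) x w = fderiv ℝ (fun y => fderiv ℝ φ y w) x v := by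
  have h1 : DifferentiableAt ℝ (fderiv ℝ φ) x :=
    (hφ.fderiv_right (m := ∞) (by simp)).differentiable (by simp) x
  rw [fderiv_clm_apply h1 (differentiableAt_const _),
    fderiv_clm_apply h1 (differentiableAt_const _)]
  simpa using ((hφ.of_le (WithTop.coe_le_coe.2 (le_top (a := (2 : ℕ∞))))).contDiffAt.isSymmSndFDerivAt
    (by simp)).eq w v

/-- **weak solutions gain one derivative** -/
theorem gain [FiniteDimensional ℝ V] (ha : ∀ j, ContDiff ℝ ∞ (a j))
    (hc : ∀ j, HasCompactSupport (a j)) {K : Set E} (hK : IsCompact K) {r : ℝ} (hr : 0 < r)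
    (hg : Ga μ e a (Metric.cthickening r K)) (k : ℕ) {u : E → V} {G : E → W} (hu : Hk μ k u)
    (h0 : Zo μ K u) (hG : Hk μ k G) (h : WE μ e a u G) : Hk μ (k + 1) u := by
  induction k generalizing u G with
  | zero => exact ⟨hu, gain0 ha hc hK hr hg hu h0 hG h⟩
  | succ k ih =>
    refine ⟨hu.1, fun v => ?_⟩
    obtain ⟨g, h1, h2⟩ := hu.2 v
    obtain ⟨G', h3, h4⟩ := hG.2 v
    choose p h5 h6 using fun j => (hu.clm (cd_dir (ha j) v) (cs_dir (hc j) v)).2 (e j)
    refine ⟨g, h1, ih (G := fun x => G' x + -∑ j, p j x) h2 (h0.wd hK.isClosed h1 h2.li)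
      (h4.add (Hk.sum _ h6).neg) fun φ hφ => ?_⟩
    have h7 : ∀ j, ∫ x, fderiv ℝ φ x (e j) • a j x (g x) ∂μ = ∫ x, φ x • p j x ∂μ -
        ∫ x, fderiv ℝ (fun y => fderiv ℝ φ y v) x (e j) • a j x (u x) ∂μ := fun j => by
      have h8 := isWD_clm (ha j) (hc j) hu.1 h2.memLp h1 _ (hφ.fderiv (e j))
      simp only [smul_add, dir_comm hφ.1 (e j) v] at h8
      rw [integral_add ((hφ.fderiv _).integrable_smul
        (hu.clm (cd_dir (ha j) v) (cs_dir (hc j) v)).li)
        ((hφ.fderiv _).integrable_smul (h2.clm (ha j) (hc j)).li), h5 j φ hφ] at h8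
      rw [h8]
      abel
    simp only [h7, Finset.sum_sub_distrib, h _ (hφ.fderiv v), h3 φ hφ, smul_add, smul_neg,
      Finset.smul_sum]
    rw [integral_add (hφ.integrable_smul h4.li)
      (integrable_finsetSum _ fun j _ => hφ.integrable_smul (h6 j).li).fun_neg, integral_neg,
      integral_finsetSum _ fun j _ => hφ.integrable_smul (h6 j).li]
    abel

end

end Vale.Agent.P275ER
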