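import Vale.Agent.P275ER.Reg
import Vale.Agent.P275HG.Glb
import Vale.Agent.P275M.Sym

/-!
# Smooth Hodge theory on compact Kaehler manifolds, without hypotheses

The rows `GREG` (global regularity and Garding) and `SYM` (symbol of `d + d*`) are proved, so
the row `GLB` and the Hodge package hold outright.
-/

open scoped Manifold ContDiff Topology

namespace Vale.Agent.P275ER

open Vale.Agent.P272.K Vale.Agent.P272.K.INT Vale.Agent.P281Z.Hg Vale.Agent.P281Z.Hg.Ws
  Vale.Agent.P275M Vale.Agent.P299.H863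

/-- row GLB -/
theorem glb : GLB := P275HG.glb greg P275M.symb

/-- smooth Hodge theory on a compact Kaehler manifold -/
theorem hodge (d : ℕ) (M : Type) [TopologicalSpace M] [ChartedSpace (Cm d) M]
    [T2Space M] [CompactSpace M] [IsManifold 𝓘(ℂ, Cm d) ω M] {X : Cx (SF d M) d}
    {w : Rw d M (Matrix (Fin d) (Fin d) ℂ)} {K : KP X} (hX : RealX X) (hw : IsKahler w)
    (hK : RealK w K) : K.OK ∧ K.KIa ∧ K.KIb ∧ HD K ∧ DD K.A K.Ab :=
  P275HG.hodge_of glb d M hX hw hK

/-- the de Rham complex of a compact Kaehler manifold carries a Kaehler package with the Hodge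
decomposition and the `∂∂̄` lemma -/
theorem hodge_ex (d : ℕ) (M : Type) [TopologicalSpace M] [ChartedSpace (Cm d) M]
    [T2Space M] [CompactSpace M] [IsManifold 𝓘(ℂ, Cm d) ω M] {X : Cx (SF d M) d}
    {w : Rw d M (Matrix (Fin d) (Fin d) ℂ)} (hX : RealX X) (hw : IsKahler w) :
    X.OK ∧ ∃ K : KP X, RealK w K ∧ K.Alg ∧ K.OK ∧ K.KIa ∧ K.KIb ∧ HD K ∧ DD K.A K.Ab := by
  obtain ⟨K, hK⟩ := P275HG.exists_K hX hw
  exact ⟨P275HG.ok_X hX, K, hK, (P275HG.alg_K hX hw hK).1, hodge d M hX hw hK⟩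

end Vale.Agent.P275ER
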