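import Vale.Agent.P299.H863.LocC
import Vale.Agent.P363.R.Sob.S06
import Vale.Agent.P363.R.Sob.Chain

/-!
# P275, elliptic theory, part 1: Sobolev classes and the embedding into smooth functions
-/

namespace Vale.Agent.P275ER

open MeasureTheory Filter Topology
open scoped ContDiff ENNReal
open Vale.Agent.P363.R.Sob Vale.Agent.P299.H863

set_option linter.unusedSectionVars false

noncomputable section

variable {E : Type*} [NormedAddCommGroup E] [NormedSpace ℝ E] [FiniteDimensional ℝ E]
  [MeasurableSpace E] [BorelSpace E] {μ : Measure E} [μ.IsAddHaarMeasure]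
variable {V W : Type*} [NormedAddCommGroup V] [NormedSpace ℝ V] [CompleteSpace V]
  [NormedAddCommGroup W] [NormedSpace ℝ W] [CompleteSpace W]

/-- the Sobolev class of order `k` -/
def Hk (μ : Measure E) : ℕ → (E → V) → Prop
  | 0, u => MemLp u 2 μ
  | k + 1, u => MemLp u 2 μ ∧ ∀ v : E, ∃ g, IsWD μ v u g ∧ Hk μ k g

/-- `u` vanishes almost everywhere outside `K` -/
def Zo (μ : Measure E) (K : Set E) (u : E → V) : Prop := ∀ᵐ x ∂μ, x ∉ K → u x = 0

theorem Hk.memLp {k : ℕ} {u : E → V} (h : Hk μ k u) : MemLp u 2 μ := by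
  cases k with
  | zero => exact h
  | succ k => exact h.1

theorem Hk.li {k : ℕ} {u : E → V} (h : Hk μ k u) : LocallyIntegrable u μ :=
  h.memLp.locallyIntegrable (by norm_num)

theorem Hk.congr {k : ℕ} {u u' : E → V} (h : Hk μ k u) (e : u =ᵐ[μ] u') : Hk μ k u' := by
  cases k with
  | zero => exact MemLp.ae_eq e h
  | succ k =>
    exact ⟨MemLp.ae_eq e h.1, fun v =>
      (h.2 v).imp fun g hg => ⟨hg.1.congr e EventuallyEq.rfl, hg.2⟩⟩

theorem Hk.pred {k : ℕ} {u : E → V} (h : Hk μ (k + 1) u) : Hk μ k u := by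
  induction k generalizing u with
  | zero => exact h.1
  | succ k ih => exact ⟨h.1, fun v => (h.2 v).imp fun g hg => ⟨hg.1, ih hg.2⟩⟩

theorem Hk.add {k : ℕ} {u u' : E → V} (h : Hk μ k u) (h' : Hk μ k u') :
    Hk μ k fun x => u x + u' x := by
  induction k generalizing u u' with
  | zero => exact MemLp.add h h'
  | succ k ih =>
    refine ⟨h.1.add h'.1, fun v => ?_⟩
    obtain ⟨g, h1, h2⟩ := h.2 v
    obtain ⟨g', h3, h4⟩ := h'.2 v
    exact ⟨_, h1.add h3 h.li h2.li h'.li h4.li, ih h2 h4⟩

theorem Hk.neg {k : ℕ} {u : E → V} (h : Hk μ k u) : Hk μ k fun x => -u x := by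
  induction k generalizing u with
  | zero => exact MemLp.neg h
  | succ k ih =>
    refine ⟨h.1.neg, fun v => ?_⟩
    obtain ⟨g, h1, h2⟩ := h.2 v
    exact ⟨_, h1.neg, ih h2⟩

theorem cd_dir {u : E → V} (hu : ContDiff ℝ ∞ u) (v : E) :
    ContDiff ℝ ∞ fun x => fderiv ℝ u x v :=
  (hu.fderiv_right (m := ∞) (by simp)).clm_apply contDiff_const

theorem cs_dir {u : E → V} (hu : HasCompactSupport u) (v : E) :
    HasCompactSupport fun x => fderiv ℝ u x v :=
  (hu.fderiv ℝ).comp_left (g := fun T : E →L[ℝ] V => T v) rfl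

theorem hk_test (k : ℕ) {u : E → V} (hu : ContDiff ℝ ∞ u) (hc : HasCompactSupport u) :
    Hk μ k u := by
  induction k generalizing u with
  | zero => exact hu.continuous.memLp_of_hasCompactSupport hc
  | succ k ih =>
    exact ⟨hu.continuous.memLp_of_hasCompactSupport hc, fun v =>
      ⟨_, isWD_of_contDiff (hu.of_le (by simp)), ih (cd_dir hu v) (cs_dir hc v)⟩⟩

theorem Hk.sum {ι : Type*} (s : Finset ι) {k : ℕ} {u : ι → E → V} (h : ∀ i, Hk μ k (u i)) :
    Hk μ k fun x => ∑ i ∈ s, u i x := by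
  classical
  induction s using Finset.induction_on with
  | empty =>
    simp only [Finset.sum_empty]
    exact hk_test k contDiff_const HasCompactSupport.zero
  | insert i s hi ih =>
    simp only [Finset.sum_insert hi]
    exact (h i).add ih

theorem memLp_clm {B : E → V →L[ℝ] W} (hB : Continuous B) (hc : HasCompactSupport B)
    {u : E → V} (hu : MemLp u 2 μ) : MemLp (fun x => B x (u x)) 2 μ := by
  obtain ⟨C, -, hC⟩ := bdd_of_cpt hB hc
  exact hu.of_le_mul (c := C) (aesm_clm_apply hB.aestronglyMeasurable hu.1)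
    (Eventually.of_forall fun x => ((B x).le_opNorm _).trans (by gcongr; exact hC x))

theorem isWD_clm {B : E → V →L[ℝ] W} (hB : ContDiff ℝ ∞ B) (hc : HasCompactSupport B)
    {u g : E → V} {v : E} (hu : MemLp u 2 μ) (hg : MemLp g 2 μ) (h : IsWD μ v u g) :
    IsWD μ v (fun x => B x (u x)) fun x => fderiv ℝ B x v (u x) + B x (g x) :=
  IsWD.bilin (ContinuousLinearMap.id ℝ (V →L[ℝ] W))
    (hB.continuous.memLp_of_hasCompactSupport hc)
    ((cd_dir hB v).continuous.memLp_of_hasCompactSupport (cs_dir hc v)) hu hg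
    (isWD_of_contDiff (hB.of_le (by simp))) h

theorem Hk.clm {k : ℕ} {B : E → V →L[ℝ] W} (hB : ContDiff ℝ ∞ B) (hc : HasCompactSupport B)
    {u : E → V} (h : Hk μ k u) : Hk μ k fun x => B x (u x) := by
  induction k generalizing u B with
  | zero => exact memLp_clm hB.continuous hc h
  | succ k ih =>
    refine ⟨memLp_clm hB.continuous hc h.1, fun v => ?_⟩
    obtain ⟨g, h1, h2⟩ := h.2 v
    exact ⟨_, isWD_clm hB hc h.1 h2.memLp h1,
      (ih (cd_dir hB v) (cs_dir hc v) h.pred).add (ih hB hc h2)⟩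

theorem Zo.wd {K : Set E} (hK : IsClosed K) {u g : E → V} {v : E} (h : Zo μ K u)
    (hw : IsWD μ v u g) (hg : LocallyIntegrable g μ) : Zo μ K g :=
  hw.ae_eq_zero_on hg hK.isOpen_compl h

theorem Zo.ae_eq {K : Set E} {u : E → V} (h : Zo μ K u) : u =ᵐ[μ] K.indicator u := by
  filter_upwards [h] with x hx
  by_cases h1 : x ∈ K
  · rw [Set.indicator_of_mem h1]
  · rw [Set.indicator_of_notMem h1, hx h1]

theorem Zo.moll {K : Set E} {u : E → V} (h : Zo μ K u) (ρ : ContDiffBump (0 : E)) {r : ℝ}
    (hρ : ρ.rOut ≤ r) {x : E} (hx : x ∉ Metric.cthickening r K) : moll μ ρ u x = 0 := by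
  rw [moll_congr_ae ρ h.ae_eq]
  exact moll_eq_zero (fun y hy => Set.indicator_of_notMem hy u) ρ hρ hx

theorem Zo.moll_cs {K : Set E} (hK : IsCompact K) {u : E → V} (h : Zo μ K u)
    (ρ : ContDiffBump (0 : E)) : HasCompactSupport (P363.R.Sob.moll μ ρ u) :=
  HasCompactSupport.intro (hK.cthickening (r := ρ.rOut)) fun _ hx => h.moll ρ le_rfl hx

theorem Zo.memLp_one {K : Set E} (hK : IsCompact K) {u : E → V} (h : Zo μ K u)
    (hu : MemLp u 2 μ) : MemLp u 1 μ :=
  MemLp.ae_eq h.ae_eq.symm ((hu.indicator hK.measurableSet).mono_exponent_of_measure_support_ne_top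
    (fun y hy => Set.indicator_of_notMem hy u) hK.measure_lt_top.ne (by norm_num))

/-- all weak derivatives are square integrable -/
def HI (μ : Measure E) (u : E → V) : Prop := ∀ k, Hk μ k u

theorem HI.deriv {u : E → V} (h : HI μ u) (v : E) : ∃ g, IsWD μ v u g ∧ HI μ g := by
  obtain ⟨g, h1, h2⟩ := (h 1).2 v
  refine ⟨g, h1, fun k => ?_⟩
  obtain ⟨g', h3, h4⟩ := (h (k + 1)).2 v
  exact h4.congr (h3.unique h1 h4.li h2.li)

/-- iterated directional derivatives -/
def dl : List E → (E → V) → E → V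
  | [], w => w
  | v :: l, w => dl l fun x => fderiv ℝ w x v

theorem dl_smooth (l : List E) {w : E → V} (hw : ContDiff ℝ ∞ w) : ContDiff ℝ ∞ (dl l w) := by
  induction l generalizing w with
  | nil => exact hw
  | cons v l ih => exact ih (cd_dir hw v)

theorem dl_sub (l : List E) {w w' : E → V} (hw : ContDiff ℝ ∞ w) (hw' : ContDiff ℝ ∞ w') :
    dl l (w - w') = dl l w - dl l w' := by
  induction l generalizing w w' with
  | nil => rfl
  | cons v l ih =>
    refine Eq.trans ?_ (ih (cd_dir hw v) (cd_dir hw' v))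
    refine congrArg (dl l) (funext fun x => ?_)
    rw [fderiv_sub (hw.differentiable (by simp) x) (hw'.differentiable (by simp) x)]
    rfl

theorem dl_moll {K : Set E} (hK : IsClosed K) (l : List E) {u : E → V} (h : HI μ u)
    (h0 : Zo μ K u) : ∃ g, HI μ g ∧ Zo μ K g ∧ ∀ ρ, dl l (moll μ ρ u) = moll μ ρ g := by
  induction l generalizing u with
  | nil => exact ⟨u, h, h0, fun _ => rfl⟩
  | cons v l ih =>
    obtain ⟨g, h1, h2⟩ := h.deriv v
    obtain ⟨g', h3, h4, h5⟩ := ih h2 (h0.wd hK h1 (h2 0).li)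
    exact ⟨g', h3, h4, fun ρ => (congrArg (dl l)
      (funext fun x => fderiv_moll ρ h1 (h 0).li x)).trans (h5 ρ)⟩

theorem sup_pi {n : ℕ} (T : (Fin n → ℝ) ≃L[ℝ] E) (l : List (Fin n)) (hl : l.Nodup) {w : E → V}
    (hw : ContDiff ℝ ∞ w) (hc : HasCompactSupport w) (x : Fin n → ℝ) :
    ‖w (T x)‖ₑ ≤ (∫⋯∫⁻_l.toFinset, fun y => ‖dl (l.map fun i => T (Pi.single i 1)) w (T y)‖ₑ
      ∂fun _ => volume) x := by
  induction l generalizing w x with
  | nil => simp [dl]
  | cons i l ih =>
    rw [List.nodup_cons] at hl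
    have hm : Measurable fun y =>
        ‖dl ((i :: l).map fun i => T (Pi.single i 1)) w (T y)‖ₑ :=
      ((dl_smooth _ hw).continuous.comp T.continuous).enorm.measurable
    rw [List.toFinset_cons, lmarginal_insert _ hm (by simpa using hl.1)]
    have h1 : ContDiff ℝ 1 (fun t => w (T (Function.update x i t))) :=
      (hw.of_le (by simp)).comp (T.contDiff.comp (contDiff_update 1 x i))
    have h2 : HasCompactSupport (fun t => w (T (Function.update x i t))) :=
      (hc.comp_homeomorph T.toHomeomorph).comp_isClosedEmbedding (isClosedEmbedding_update x i)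
    have h3 := h2.enorm_le_lintegral_Ici_deriv h1 (x i)
    rw [Function.update_eq_self] at h3
    refine h3.trans ((setLIntegral_le_lintegral _ _).trans (lintegral_mono fun t => ?_))
    have h4 : HasDerivAt (fun t => w (T (Function.update x i t)))
        (fderiv ℝ w (T (Function.update x i t)) (T (Pi.single i 1))) t :=
      (hw.differentiable (by simp) _).hasFDerivAt.comp_hasDerivAt t
        (T.hasFDerivAt.comp_hasDerivAt t (hasDerivAt_update x i t))
    rw [h4.deriv]
    exact ih hl.2 (cd_dir hw _) (cs_dir hc _) _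

variable (μ V) in
/-- the supremum is bounded by the integral of a derivative -/
theorem exists_sup : ∃ (l : List E) (C : ℝ≥0∞), C ≠ ⊤ ∧ ∀ w : E → V, ContDiff ℝ ∞ w →
    HasCompactSupport w → ∀ x, ‖w x‖ₑ ≤ C * eLpNorm (dl l w) 1 μ := by
  have h0 : Module.finrank ℝ (Fin (Module.finrank ℝ E) → ℝ) = Module.finrank ℝ E := by simp
  let T := ContinuousLinearEquiv.ofFinrankEq h0
  have h1 : (volume : Measure (Fin (Module.finrank ℝ E) → ℝ)).map T =
      Measure.addHaarScalarFactor (volume.map T) μ • μ := Measure.isAddLeftInvariant_eq_smul _ _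
  refine ⟨(List.finRange _).map fun i => T (Pi.single i 1),
    Measure.addHaarScalarFactor (volume.map T) μ, ENNReal.coe_ne_top, fun w hw hc x => ?_⟩
  have h2 := sup_pi T _ (List.nodup_finRange _) hw hc (T.symm x)
  rw [T.apply_symm_apply, List.toFinset_finRange, lmarginal_univ] at h2
  refine h2.trans (le_of_eq ?_)
  rw [eLpNorm_one_eq_lintegral_enorm, ← smul_eq_mul, ← lintegral_smul_measure, ← ENNReal.smul_def,
    ← h1, lintegral_map (dl_smooth _ hw).continuous.enorm.measurable T.continuous.measurable]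
  rfl

theorem unif {K : Set E} (hK : IsCompact K) {u : E → V} (h : HI μ u) (h0 : Zo μ K u) :
    ∃ f, TendstoUniformly (fun n => moll μ (stdBump n) u) f atTop := by
  obtain ⟨l, C, hC, h1⟩ := exists_sup μ V
  obtain ⟨g, h2, h3, h4⟩ := dl_moll hK.isClosed l h h0
  have h5 := h3.memLp_one hK (h2 0)
  have h6 := ENNReal.Tendsto.const_mul (a := C) (tendsto_moll_std (p := 1) (by simp) h5)
    (Or.inr hC)
  rw [mul_zero] at h6
  have hs : ∀ n, ContDiff ℝ ∞ (moll μ (stdBump n) u) := fun n => moll_contDiff _ (h 0).li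
  have hg : ∀ n, AEStronglyMeasurable (moll μ (stdBump n) g - g) μ := fun n =>
    (moll_contDiff _ (h2 0).li).continuous.aestronglyMeasurable.sub h5.1
  have h7 : UniformCauchySeqOn (fun n => moll μ (stdBump n) u) atTop Set.univ := by
    rw [Metric.uniformCauchySeqOn_iff]
    intro ε hε
    obtain ⟨N, hN⟩ := eventually_atTop.1 (h6.eventually
      (gt_mem_nhds (ENNReal.ofReal_pos.2 (half_pos hε))))
    refine ⟨N, fun m hm n hn x _ => ?_⟩
    have h8 := h1 _ ((hs m).sub (hs n)) ((h0.moll_cs hK _).sub (h0.moll_cs hK _)) x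
    have h9 : dl l (moll μ (stdBump m) u - moll μ (stdBump n) u) =
        (moll μ (stdBump m) g - g) - (moll μ (stdBump n) g - g) := by
      rw [dl_sub l (hs m) (hs n), h4, h4, sub_sub_sub_cancel_right]
    have h10 : ‖moll μ (stdBump m) u x - moll μ (stdBump n) u x‖ₑ < ENNReal.ofReal ε := by
      refine h8.trans_lt ?_
      have h11 := eLpNorm_sub_le (p := 1) (hg m) (hg n) le_rfl
      rw [← h9] at h11
      refine (mul_le_mul_right h11 C).trans_lt ?_
      rw [mul_add, ← add_halves ε, ENNReal.ofReal_add (half_pos hε).le (half_pos hε).le]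
      exact ENNReal.add_lt_add (hN m hm) (hN n hn)
    rw [dist_eq_norm]
    rwa [← ofReal_norm, ENNReal.ofReal_lt_ofReal_iff hε] at h10
  choose f hf using fun x => cauchySeq_tendsto_of_complete (h7.cauchySeq (Set.mem_univ x))
  exact ⟨f, tendstoUniformlyOn_univ.1 (h7.tendstoUniformlyOn_of_tendsto fun x _ => hf x)⟩

theorem smooth_lim {K : Set E} (hK : IsCompact K) (r : ℕ) {u f : E → V} (h : HI μ u)
    (h0 : Zo μ K u) (hf : TendstoUniformly (fun n => moll μ (stdBump n) u) f atTop) :
    ContDiff ℝ r f := by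
  have hs : ∀ {u : E → V}, HI μ u → ∀ n, ContDiff ℝ ∞ (moll μ (stdBump n) u) := fun h n =>
    moll_contDiff _ (h 0).li
  induction r generalizing u f with
  | zero => exact contDiff_zero.2 (hf.continuous (Frequently.of_forall fun n => (hs h n).continuous))
  | succ r ih =>
    let b := Module.finBasis ℝ E
    choose g h1 h2 using fun j => h.deriv (b j)
    have h3 : ∀ j, Zo μ K (g j) := fun j => h0.wd hK.isClosed (h1 j) (h2 j 0).li
    choose G hG using fun j => unif hK (h2 j) (h3 j)
    let Φ : (Fin (Module.finrank ℝ E) → V) →L[ℝ] E →L[ℝ] V :=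
      ∑ j, (ContinuousLinearMap.smulRightL ℝ E V
        (LinearMap.toContinuousLinearMap (b.coord j))).comp (ContinuousLinearMap.proj j)
    have hΦ : ∀ T : E →L[ℝ] V, Φ (fun j => T (b j)) = T := fun T => by
      ext v
      conv_rhs => rw [← b.sum_repr v, map_sum]
      simp [Φ]
    have h4 : TendstoUniformly (fun n x j => moll μ (stdBump n) (g j) x) (fun x j => G j x)
        atTop := by
      rw [Metric.tendstoUniformly_iff]
      intro ε hε
      filter_upwards [eventually_all.2 fun j => Metric.tendstoUniformly_iff.1 (hG j) ε hε]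
        with n hn x
      exact (dist_pi_lt_iff hε).2 fun j => hn j x
    refine contDiff_succ_iff_hasFDerivAt.2 ⟨fun x => Φ fun j => G j x,
      Φ.contDiff.comp (contDiff_pi.2 fun j => ih (h2 j) (h3 j) (hG j)), fun x => ?_⟩
    refine hasFDerivAt_of_tendstoUniformly (Φ.uniformContinuous.comp_tendstoUniformly h4)
      (fun n y => ?_) (fun y => hf.tendsto_at y) x
    have h5 : (fun j => moll μ (stdBump n) (g j) y) =
        fun j => fderiv ℝ (moll μ (stdBump n) u) y (b j) :=
      funext fun j => (fderiv_moll _ (h1 j) (h 0).li y).symm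
    show HasFDerivAt _ (Φ fun j => moll μ (stdBump n) (g j) y) y
    rw [h5, hΦ]
    exact ((hs h n).differentiable (by simp) y).hasFDerivAt

/-- **Sobolev embedding**: a function with compact support and all weak derivatives in `L²` is
smooth. -/
theorem emb {K : Set E} (hK : IsCompact K) {u : E → V} (h : HI μ u) (h0 : Zo μ K u) :
    ∃ f, ContDiff ℝ ∞ f ∧ (∀ x, x ∉ K → f x = 0) ∧ u =ᵐ[μ] f := by
  obtain ⟨f, hf⟩ := unif hK h h0
  have h1 : ContDiff ℝ ∞ f := contDiff_infty.2 fun r => smooth_lim hK r h h0 hf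
  have h2 : u =ᵐ[μ] f := by
    filter_upwards [ContDiffBump.ae_convolution_tendsto_right_of_locallyIntegrable (K := 2)
      (tendsto_stdBump_rOut (E := E)) (Eventually.of_forall fun n => le_of_eq (by
        show (1 / ((n : ℝ) + 1)) = 2 * (1 / (2 * ((n : ℝ) + 1)))
        field_simp)) (h 0).li] with x hx
    exact tendsto_nhds_unique hx (hf.tendsto_at x)
  refine ⟨f, h1, fun x hx => ?_, h2⟩
  refine Measure.eqOn_open_of_ae_eq (μ := μ) (g := fun _ => 0) ?_ hK.isClosed.isOpen_compl
    h1.continuous.continuousOn continuousOn_const hx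
  rw [EventuallyEq, ae_restrict_iff' hK.measurableSet.compl]
  filter_upwards [h0, h2] with y h3 h4 h5
  rw [← h4, h3 h5]

end

end Vale.Agent.P275ER
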